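import Vale.Agent.P247.Torus.Main

/-!
P247, partial answer on the four-torus `ℝ⁴ / ℤ⁴` with standard orientation.

A normalized hypersymplectic triple `ω` has a cohomologous deformation to a hyperkaehler triple if
* `TwoInvariant ω`: two independent combinations of the `ωᵢ` are invariant under the translations
  along `x₀` (the third is arbitrary; this includes the case that two combinations are constant), or
* `SliceInvariant ω`: the coordinates `23, 31, 12` of every `ωᵢ` do not depend on `x₀`, or
* `PositiveAgainstMean ω`: `q (ω_d, m_d) + √(q (ω_d, ω_d) |d|²) > 0` for all `d ≠ 0`, where `ω_d`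
  is a combination and `m_d` its mean value.
-/

namespace Vale.Agent.Results.P247.TorusDeformation

open Vale.Agent.P204.Torus Vale.Agent.P247.Torus

theorem result {ω : Fin 3 → V → Form} (hω : Hypersymplectic ω) (hn : Normalized ω)
    (h : TwoInvariant ω ∨ SliceInvariant ω ∨ PositiveAgainstMean ω) :
    ∃ W : ℝ → Fin 3 → V → Form, CohomologousDeformation ω W ∧ HyperkahlerTriple (W 1) :=
  exists_deformation hω hn h

end Vale.Agent.Results.P247.TorusDeformation
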