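import Vale.Agent.P247.Ortho.Main

/-!
P247, partial answer on the four-torus `ℝ⁴ / ℤ⁴` with standard orientation, with no symmetry and no
smallness: every normalized hypersymplectic triple has a cohomologous deformation to a hypersymplectic
triple `τ` with `τ_i ∧ τ_j = 0` for `i ≠ j` at every point. What is left of the question on the
torus is to make the three squares `τ_i ∧ τ_i` equal.
-/

namespace Vale.Agent.Results.P247.TorusOrthogonal

open Vale.Agent.P204.Torus Vale.Agent.P247.Torus Vale.Agent.P247.Ortho

theorem result {ω : Fin 3 → V → Form} (hω : Hypersymplectic ω) (hn : Normalized ω) :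
    ∃ W : ℝ → Fin 3 → V → Form,
      CohomologousDeformation ω W ∧ ∀ x i j, i ≠ j → q (W 1 i x) (W 1 j x) = 0 :=
  exists_orthogonal_deformation hω hn

end Vale.Agent.Results.P247.TorusOrthogonal
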